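import Vale.Agent.P142.Cauchy.Blow
import Vale.Agent.P142.Cauchy.Area

/-!
Brennan's range of exponents for univalent maps whose logarithm of the derivative is, up to a
function continuous on the closed disc, the Cauchy potential of a finite complex measure.
-/

open Complex MeasureTheory Metric Set
open scoped ComplexConjugate
open Vale.Agent.P142.Cauchy

namespace Vale.Agent.Results.P142.CauchyBrennan

/-- If `f` is injective on the unit disc and `f'` is the exponential of a continuous function on
the closed disc plus a logarithmic potential of a finite complex measure `ρ ν` on the circle, then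
`|f'|^t` is integrable over the disc for every `t` in `(-2, 2/3)`. -/
theorem result {f g : ℂ → ℂ} {ν : Measure ℂ} [IsFiniteMeasure ν] {ρ : ℂ → ℂ}
    (hf : DifferentiableOn ℂ f (ball 0 1)) (hinj : InjOn f (ball 0 1))
    (hν : ∀ᵐ w ∂ν, ‖w‖ = 1) (hρ : Integrable ρ ν) (hg : ContinuousOn g (closedBall 0 1))
    (hf' : ∀ z ∈ ball (0 : ℂ) 1,
      deriv f z = exp (g z + ∫ w, ρ w * log (1 - z * conj w) ∂ν))
    {t : ℝ} (ht : t ∈ Ioo (-2 : ℝ) (2 / 3)) :
    IntegrableOn (fun z => ‖deriv f z‖ ^ t) (ball 0 1) := by
  obtain ⟨G, hG⟩ := (isCompact_closedBall (0 : ℂ) 1).exists_bound_of_continuousOn hg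
  set θ := fun w => max (-(t * (ρ w).re)) 0
  have hθ : Integrable θ ν := ((hρ.re).const_mul t).neg.pos_part
  set C := Real.exp (|t| * G + (|t| * Real.log 3 + |t| * (Real.pi / 2)) * ∫ w, ‖ρ w‖ ∂ν)
  refine potential_area (θ := θ) hν hθ (fun w => le_max_right _ _) (fun a ha => ?_) ?_ (C := C)
    fun z hz => ?_
  · -- the atoms
    obtain ⟨h1, h2⟩ := atom_bound hf hinj hν hρ hg hf' ha
    rw [mul_re, ofReal_re, ofReal_im, zero_mul, sub_zero] at h1 h2
    show max (-(t * (ρ a).re)) 0 * ν.real {a} < 2
    rw [max_mul_of_nonneg _ _ measureReal_nonneg, zero_mul, max_lt_iff]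
    refine ⟨?_, two_pos⟩
    rcases le_total 0 t with h | h
    · nlinarith [mul_le_mul_of_nonneg_left h1 h, ht.2]
    · nlinarith [mul_le_mul_of_nonpos_left h2 h, ht.1]
  · refine ContinuousOn.aestronglyMeasurable ?_ measurableSet_ball
    refine ((hf.analyticOnNhd isOpen_ball).deriv.continuousOn.norm).rpow_const fun z hz => Or.inl ?_
    rw [norm_ne_zero_iff, hf' z hz]
    exact exp_ne_zero _
  · have hz1 := mem_ball_zero_iff.1 hz
    have hi := integrable_kernel hν hρ hz1
    have hk : Integrable (fun w => θ w * Real.log (3 / ‖z - w‖)) ν := by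
      refine potential_integrable (by fun_prop) hθ (B := Real.log (3 / (1 - ‖z‖))) ?_
      filter_upwards [hν] with w hw
      have h1 : 1 - ‖z‖ ≤ ‖z - w‖ := by
        have := norm_sub_norm_le w z
        rw [hw, norm_sub_rev] at this
        exact this
      have h2 : ‖z - w‖ ≤ 2 := (norm_sub_le _ _).trans (by linarith)
      have h0 : 0 < ‖z - w‖ := by linarith
      rw [abs_of_nonneg (Real.log_nonneg (by rw [le_div_iff₀ h0]; linarith))]
      exact Real.log_le_log (by positivity)
        (div_le_div_of_nonneg_left (by norm_num) (by linarith) h1)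
    rw [Real.norm_eq_abs, abs_of_nonneg (Real.rpow_nonneg (norm_nonneg _) _), hf' z hz, norm_exp,
      ← Real.exp_mul]
    simp only [C]
    rw [← Real.exp_add, Real.exp_le_exp, add_re, add_mul]
    have e1 : (g z).re * t ≤ |t| * G := by
      refine (le_abs_self _).trans ?_
      rw [abs_mul, mul_comm]
      exact mul_le_mul_of_nonneg_left
        ((abs_re_le_norm _).trans (hG z (ball_subset_closedBall hz))) (abs_nonneg t)
    have e2 : (∫ w, ρ w * log (1 - z * conj w) ∂ν).re * t
        ≤ (|t| * Real.log 3 + |t| * (Real.pi / 2)) * (∫ w, ‖ρ w‖ ∂ν)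
          + ∫ w, θ w * Real.log (3 / ‖z - w‖) ∂ν := by
      rw [show (∫ w, ρ w * log (1 - z * conj w) ∂ν).re
          = ∫ w, (ρ w * log (1 - z * conj w)).re ∂ν from (integral_re hi).symm,
        ← integral_mul_const, ← integral_const_mul, ← integral_add (hρ.norm.const_mul _) hk]
      refine integral_mono_ae (hi.re.mul_const t) ((hρ.norm.const_mul _).add hk) ?_
      filter_upwards [hν] with w hw
      have hre := one_sub_re_pos hw hz1
      have h0 : 0 < ‖z - w‖ := by
        rw [← norm_one_sub hw]
        exact norm_pos_iff.2 (ne_zero_of_re_pos hre)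
      rw [mul_re, log_re, log_im, norm_one_sub hw]
      have hl : Real.log ‖z - w‖ = Real.log 3 - Real.log (3 / ‖z - w‖) := by
        rw [Real.log_div three_ne_zero h0.ne']
        ring
      have hk0 : 0 ≤ Real.log (3 / ‖z - w‖) := Real.log_nonneg (by
        rw [le_div_iff₀ h0]
        linarith [norm_sub_le z w])
      have a1 : t * (ρ w).re * Real.log 3 ≤ |t| * Real.log 3 * ‖ρ w‖ := by
        rw [mul_right_comm]
        refine (le_abs_self _).trans ?_
        rw [abs_mul, abs_mul, abs_of_nonneg (Real.log_nonneg (by norm_num : (1 : ℝ) ≤ 3))]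
        exact mul_le_mul_of_nonneg_left (abs_re_le_norm _)
          (mul_nonneg (abs_nonneg _) (Real.log_nonneg (by norm_num)))
      have a2 : -(t * (ρ w).re) * Real.log (3 / ‖z - w‖) ≤ θ w * Real.log (3 / ‖z - w‖) :=
        mul_le_mul_of_nonneg_right (le_max_left _ _) hk0
      have a3 : -(t * (ρ w).im * arg (1 - z * conj w)) ≤ |t| * (Real.pi / 2) * ‖ρ w‖ := by
        refine (neg_le_abs _).trans ?_
        rw [abs_mul, abs_mul, mul_right_comm]
        exact mul_le_mul (mul_le_mul_of_nonneg_left (abs_arg_le_pi_div_two_iff.2 hre.le)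
          (abs_nonneg t)) (abs_im_le_norm _) (abs_nonneg _) (by positivity)
      rw [hl]
      linarith
    linarith

end Vale.Agent.Results.P142.CauchyBrennan
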