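import Vale.Agent.P142.Graph.Main

/-!
Brennan's conjecture for bounded domains whose boundary is locally a graph.
-/

open Complex Metric Filter Set Topology MeasureTheory
open Vale.Agent.P142.Graph

namespace Vale.Agent.Results.P142.GraphDomains

/-- If near every boundary point `W` is, in suitable affine coordinates, the set above the graph
of a function (arbitrary, possibly discontinuous), then the derivative of any conformal map of
`W` onto the disc is integrable to every power in `(4/3, 4)`. -/
theorem result {W : Set ℂ} (hW : IsOpen W) (hbd : Bornology.IsBounded W)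
    (hloc : ∀ p ∈ frontier W, ∃ u : ℂ, u ≠ 0 ∧ ∃ a > 0, ∃ γ : ℝ → ℝ, ∀ x y : ℝ,
      |x| < a → |y| < 1 → |γ x| < 1 ∧ (p + u * (x + y * I) ∈ W ↔ γ x < y))
    {φ : ℂ → ℂ} (hd : DifferentiableOn ℂ φ W) (hbij : BijOn φ W (ball 0 1))
    {s : ℝ} (hs : s ∈ Ioo (4 / 3 : ℝ) 4) :
    IntegrableOn (fun z => ‖deriv φ z‖ ^ s) W := by
  set f := fun z => ‖deriv φ z‖ ^ s with hf
  have h : IntegrableOn f (closure W ∩ W) := by
    refine hbd.isCompact_closure.induction_on (p := fun S => IntegrableOn f (S ∩ W) volume) (by simp)
      (fun S S' hSS' hI => hI.mono_set (inter_subset_inter_left _ hSS'))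
      (fun S S' hI hI' => by rw [union_inter_distrib_right]; exact hI.union hI') fun z hz => ?_
    by_cases hzW : z ∈ W
    · obtain ⟨r, hr, hsub⟩ := Metric.nhds_basis_closedBall.mem_iff.1 (hW.mem_nhds hzW)
      refine ⟨_, mem_nhdsWithin_of_mem_nhds (closedBall_mem_nhds z hr), ?_⟩
      have hc : ContinuousOn f (closedBall z r) :=
        ((hd.deriv hW).continuousOn.mono hsub).norm.rpow_const
          fun x _ => Or.inr (by linarith [hs.1])
      exact (hc.integrableOn_compact (isCompact_closedBall z r)).mono_set inter_subset_left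
    · have hfr : z ∈ frontier W := ⟨hz, by rwa [hW.interior_eq]⟩
      obtain ⟨u, hu, a, ha, γ, hγ⟩ := hloc z hfr
      obtain ⟨A, c, g, e, v, K, hmem⟩ := exists_chart hW hu ha hγ
      refine ⟨_, mem_nhdsWithin_of_mem_nhds (IsOpen.mem_nhds ?_ hmem), K.integrable hW hd hbij hs⟩
      have e1 : (fun w => e + v * w) '' mid A = (fun z => (z - e) / v) ⁻¹' mid A := by
        ext z
        constructor
        · rintro ⟨w, hw, rfl⟩
          simpa [K.hv] using hw
        · intro hz'
          exact ⟨(z - e) / v, hz', by field_simp [K.hv]; ring⟩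
      rw [e1]
      exact (isOpen_mid A).preimage (by fun_prop)
  exact h.mono_set fun z hz => ⟨subset_closure hz, hz⟩

end Vale.Agent.Results.P142.GraphDomains
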